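import Vale.Agent.P079.Basic

/-!
Configurations with a slot, and ultrafilter limits of functionals.
-/

open Filter Topology Metric Set

namespace Vale.Agent.P079.Full

universe u

variable {X : Type u} [NormedAddCommGroup X] [NormedSpace ℝ X]

/-- Pointwise ultrafilter limits of functionals of norm at most one. -/
theorem exists_dualLim {ι : Type*} (U : Ultrafilter ι) (f : ι → StrongDual ℝ X)
    (hf : ∀ i, ‖f i‖ ≤ 1) :
    ∃ F : StrongDual ℝ X, ‖F‖ ≤ 1 ∧ ∀ v, Tendsto (fun i => f i v) U (𝓝 (F v)) := by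
  have hex : ∀ v : X, ∃ l : ℝ, |l| ≤ ‖v‖ ∧ Tendsto (fun i => f i v) U (𝓝 l) := by
    intro v
    have hb : ∀ i, f i v ∈ Icc (-‖v‖) ‖v‖ := fun i => abs_le.mp
      (((f i).le_opNorm v).trans (mul_le_of_le_one_left (norm_nonneg _) (hf i)))
    obtain ⟨l, hl, hlim⟩ := isCompact_Icc.ultrafilter_le_nhds (U.map fun i => f i v)
      (by
        rw [Ultrafilter.coe_map, le_principal_iff, Filter.mem_map]
        exact Filter.univ_mem' hb)
    exact ⟨l, abs_le.mpr hl, hlim⟩
  choose l hl hlim using hex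
  let F₀ : X →ₗ[ℝ] ℝ :=
    { toFun := l
      map_add' := fun v v' => tendsto_nhds_unique (hlim (v + v'))
        (by simpa using (hlim v).add (hlim v'))
      map_smul' := fun c v => tendsto_nhds_unique (hlim (c • v))
        (by simpa using (hlim v).const_mul c) }
  exact ⟨F₀.mkContinuous 1 (fun v => by simpa [F₀, Real.norm_eq_abs] using hl v),
    LinearMap.mkContinuous_norm_le _ zero_le_one _, fun v => hlim v⟩

/-- The first `N` points with weights `τ`, the remaining weight sitting on `a`. -/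
noncomputable def comb (y : ℕ → X) (τ : ℕ → ℝ) (N : ℕ) (a : X) : X :=
  ∑ l ∈ Finset.range N, τ l • y l + (1 - ∑ l ∈ Finset.range N, τ l) • a

theorem comb_zero (y : ℕ → X) (τ : ℕ → ℝ) (a : X) : comb y τ 0 a = a := by
  simp [comb]

theorem comb_congr {y y' : ℕ → X} (τ : ℕ → ℝ) {N : ℕ} (h : ∀ l < N, y l = y' l) (a : X) :
    comb y τ N a = comb y' τ N a := by
  simp only [comb]
  rw [Finset.sum_congr rfl fun l hl => by rw [h l (Finset.mem_range.mp hl)]]

theorem comb_mem {K : Set X} (hK : Convex ℝ K) {y : ℕ → X} {τ : ℕ → ℝ} {N : ℕ} {a : X}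
    (hy : ∀ l < N, y l ∈ K) (ha : a ∈ K) (hτ : ∀ l < N, 0 ≤ τ l)
    (hsum : ∑ l ∈ Finset.range N, τ l ≤ 1) : comb y τ N a ∈ K := by
  let y' : ℕ → X := Function.update y N a
  let τ' : ℕ → ℝ := Function.update τ N (1 - ∑ l ∈ Finset.range N, τ l)
  have hne : ∀ l ∈ Finset.range N, l ≠ N := fun l hl => (Finset.mem_range.mp hl).ne
  have h1 : ∑ l ∈ Finset.range N, τ' l = ∑ l ∈ Finset.range N, τ l :=
    Finset.sum_congr rfl fun l hl => Function.update_of_ne (hne l hl) _ _
  have h2 : comb y τ N a = ∑ l ∈ Finset.range (N + 1), τ' l • y' l := by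
    rw [Finset.sum_range_succ]
    simp only [comb, τ', y', Function.update_self]
    congr 1
    exact Finset.sum_congr rfl fun l hl => by
      rw [Function.update_of_ne (hne l hl), Function.update_of_ne (hne l hl)]
  rw [h2]
  refine hK.sum_mem (fun l hl => ?_) ?_ fun l hl => ?_
  · rcases eq_or_ne l N with rfl | h
    · simp [τ', hsum]
    · rw [Finset.mem_range] at hl
      simp only [τ', Function.update_of_ne h]
      exact hτ l (by omega)
  · rw [Finset.sum_range_succ, h1]
    simp [τ']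
  · rcases eq_or_ne l N with rfl | h
    · simp [y', ha]
    · rw [Finset.mem_range] at hl
      simp only [y', Function.update_of_ne h]
      exact hy l (by omega)

/-- The configuration whose `i`-th point is the slot `p`. -/
noncomputable def slot (y : ℕ → X) (τ : ℕ → ℝ) (i : ℕ) (p a : X) : X :=
  comb (Function.update y i p) τ (i + 1) a

theorem slot_self (y : ℕ → X) (τ : ℕ → ℝ) (i : ℕ) (a : X) :
    slot y τ i (y i) a = comb y τ (i + 1) a := by
  simp [slot]

theorem slot_base (y : ℕ → X) (τ : ℕ → ℝ) (i : ℕ) (a : X) :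
    slot y τ i a a = comb y τ i a := by
  simp only [slot, comb, Finset.sum_range_succ, Function.update_self]
  rw [Finset.sum_congr rfl fun l hl => by
    rw [Function.update_of_ne (Finset.mem_range.mp hl).ne]]
  module

theorem slot_congr {y y' : ℕ → X} (τ : ℕ → ℝ) {i : ℕ} (h : ∀ l < i, y l = y' l) (p a : X) :
    slot y τ i p a = slot y' τ i p a := by
  refine comb_congr τ (fun l hl => ?_) a
  rcases eq_or_ne l i with rfl | hne
  · simp
  · rw [Function.update_of_ne hne, Function.update_of_ne hne]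
    exact h l (by omega)

theorem slot_sub (y : ℕ → X) (τ : ℕ → ℝ) (i : ℕ) (p p' a : X) :
    slot y τ i p a - slot y τ i p' a = τ i • (p - p') := by
  simp only [slot, comb, Finset.sum_range_succ, Function.update_self]
  have h : ∀ q : X, ∑ l ∈ Finset.range i, τ l • Function.update y i q l =
      ∑ l ∈ Finset.range i, τ l • y l := fun q => Finset.sum_congr rfl fun l hl => by
    rw [Function.update_of_ne (Finset.mem_range.mp hl).ne]
  rw [h, h]
  module

theorem norm_slot_sub_le {K : Set X} {d : ℝ} (hd : ∀ a ∈ K, ∀ b ∈ K, ‖a - b‖ ≤ d)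
    {y : ℕ → X} {τ : ℕ → ℝ} {i : ℕ} {p a : X} (hy : ∀ l < i, y l ∈ K) (hp : p ∈ K) (ha : a ∈ K)
    (hτ : ∀ l ≤ i, 0 ≤ τ l) (hsum : ∑ l ∈ Finset.range (i + 1), τ l ≤ 1) :
    ‖slot y τ i p a - p‖ ≤ (1 - τ i) * d := by
  have h : slot y τ i p a - p = ∑ l ∈ Finset.range i, τ l • (y l - p) +
      (1 - ∑ l ∈ Finset.range (i + 1), τ l) • (a - p) := by
    simp only [slot, comb, Finset.sum_range_succ, Function.update_self, smul_sub,
      Finset.sum_sub_distrib, ← Finset.sum_smul]
    rw [Finset.sum_congr rfl fun l hl => by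
      rw [Function.update_of_ne (Finset.mem_range.mp hl).ne]]
    module
  rw [h]
  calc _ ≤ ∑ l ∈ Finset.range i, τ l * d + (1 - ∑ l ∈ Finset.range (i + 1), τ l) * d := by
        refine (norm_add_le _ _).trans (add_le_add (norm_sum_le_of_le _ fun l hl => ?_) ?_)
        · rw [Finset.mem_range] at hl
          rw [norm_smul, Real.norm_of_nonneg (hτ l hl.le)]
          exact mul_le_mul_of_nonneg_left (hd _ (hy l hl) _ hp) (hτ l hl.le)
        · rw [norm_smul, Real.norm_of_nonneg (sub_nonneg.mpr hsum)]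
          exact mul_le_mul_of_nonneg_left (hd _ ha _ hp) (sub_nonneg.mpr hsum)
    _ = (1 - τ i) * d := by rw [Finset.sum_range_succ, ← Finset.sum_mul]; ring

theorem norm_slot_weights_le {K : Set X} {d : ℝ} (hd : ∀ a ∈ K, ∀ b ∈ K, ‖a - b‖ ≤ d)
    {y : ℕ → X} {τ τ' : ℕ → ℝ} {i : ℕ} {p a : X} {h : ℝ} (hy : ∀ l < i, y l ∈ K) (hp : p ∈ K)
    (ha : a ∈ K) (hh : ∀ l ≤ i, |τ l - τ' l| ≤ h) :
    ‖slot y τ i p a - slot y τ' i p a‖ ≤ ((i + 1 : ℕ) : ℝ) * (h * d) := by
  have e : slot y τ i p a - slot y τ' i p a =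
      ∑ l ∈ Finset.range (i + 1), (τ l - τ' l) • (Function.update y i p l - a) := by
    simp only [slot, comb, smul_sub, sub_smul, Finset.sum_sub_distrib, ← Finset.sum_smul]
    module
  have hh0 : 0 ≤ h := (abs_nonneg _).trans (hh i le_rfl)
  rw [e]
  calc _ ≤ ∑ _l ∈ Finset.range (i + 1), h * d := by
        refine norm_sum_le_of_le _ fun l hl => ?_
        rw [Finset.mem_range] at hl
        rw [norm_smul, Real.norm_eq_abs]
        refine mul_le_mul (hh l (by omega)) (hd _ ?_ _ ha) (norm_nonneg _) hh0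
        rcases eq_or_ne l i with rfl | hne
        · simpa using hp
        · rw [Function.update_of_ne hne]; exact hy l (by omega)
    _ = _ := by rw [Finset.sum_const, Finset.card_range, nsmul_eq_mul]

/-- Finite convex combinations of the terms of a sequence. -/
theorem exists_comb_of_mem_convexHull {y : ℕ → X} {v : X} (hv : v ∈ convexHull ℝ (range y)) :
    ∃ (N : ℕ) (τ : ℕ → ℝ), (∀ l, 0 ≤ τ l) ∧ ∑ l ∈ Finset.range N, τ l = 1 ∧
      v = ∑ l ∈ Finset.range N, τ l • y l := by
  let P : Set X := {v | ∃ (N : ℕ) (τ : ℕ → ℝ), (∀ l, 0 ≤ τ l) ∧ (∀ l, N ≤ l → τ l = 0) ∧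
      ∑ l ∈ Finset.range N, τ l = 1 ∧ v = ∑ l ∈ Finset.range N, τ l • y l}
  have hconv : Convex ℝ P := by
    rintro _ ⟨N, τ, h0, hz, hs, rfl⟩ _ ⟨N', τ', h0', hz', hs', rfl⟩ α β hα hβ hαβ
    refine ⟨max N N', fun l => α * τ l + β * τ' l, fun l => add_nonneg (mul_nonneg hα (h0 l)) (mul_nonneg hβ (h0' l)),
      fun l hl => by simp [hz l ((le_max_left _ _).trans hl), hz' l ((le_max_right _ _).trans hl)],
      ?_, ?_⟩
    all_goals
      have e1 : ∀ {M : Type u} [AddCommGroup M] [Module ℝ M] (f : ℕ → M),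
          ∑ l ∈ Finset.range (max N N'), τ l • f l = ∑ l ∈ Finset.range N, τ l • f l :=
        fun f => (Finset.sum_subset (Finset.range_mono (le_max_left _ _))
          fun l _ hl => by rw [hz l (by simpa using hl), zero_smul]).symm
      have e2 : ∀ {M : Type u} [AddCommGroup M] [Module ℝ M] (f : ℕ → M),
          ∑ l ∈ Finset.range (max N N'), τ' l • f l = ∑ l ∈ Finset.range N', τ' l • f l :=
        fun f => (Finset.sum_subset (Finset.range_mono (le_max_right _ _))
          fun l _ hl => by rw [hz' l (by simpa using hl), zero_smul]).symm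
    · rw [Finset.sum_add_distrib, ← Finset.mul_sum, ← Finset.mul_sum,
        ← Finset.sum_subset (Finset.range_mono (le_max_left N N'))
          fun l _ hl => hz l (by simpa using hl),
        ← Finset.sum_subset (Finset.range_mono (le_max_right N N'))
          fun l _ hl => hz' l (by simpa using hl), hs, hs', mul_one, mul_one, hαβ]
    · simp only [add_smul, mul_smul, Finset.sum_add_distrib, ← Finset.smul_sum]
      rw [e1 y, e2 y]
  have hsub : range y ⊆ P := by
    rintro _ ⟨i, rfl⟩
    refine ⟨i + 1, fun l => if l = i then 1 else 0, fun l => by positivity,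
      fun l hl => if_neg (by omega), by simp, by simp⟩
  obtain ⟨N, τ, h0, -, hs, rfl⟩ := convexHull_min hsub hconv hv
  exact ⟨N, τ, h0, hs, rfl⟩

end Vale.Agent.P079.Full
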