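import Vale.Agent.P079.Full.Strategy
import Vale.Agent.P079.Full.Segments

/-!
The main induction: nested averages certify that a winning position forces the diameter
of a minimal invariant set to vanish.
-/

open Filter Topology Metric Set

namespace Vale.Agent.P079.Full

universe u

variable (X : Type u) [NormedAddCommGroup X] [NormedSpace ℝ X]

/-- The data attached to a minimal invariant set of positive diameter. -/
structure Frame where
  K : Set X
  T : X → X
  d : ℝ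
  S : Submodule ℝ X
  z : ℕ → X
  φ : ℕ → StrongDual ℝ X
  x : ℕ → X
  U : Ultrafilter ℕ
  σ : ℕ → ℝ
  R : ℕ → X → X
  href : Function.Surjective (NormedSpace.inclusionInDoubleDual ℝ X)
  hcl : IsClosed K
  hconv : Convex ℝ K
  hd : 0 < d
  bounded : ∃ M, ∀ a ∈ K, ‖a‖ ≤ M
  hdiam : ∀ a ∈ K, ∀ b ∈ K, ‖a - b‖ ≤ d
  gk : ∀ c ∈ K, ∀ e > 0, ∃ δ > 0, ∀ w ∈ K, ‖T w - w‖ ≤ δ → d - e ≤ ‖w - c‖
  hScl : IsClosed (S : Set X)
  hKS : K ⊆ S
  hsep : ∀ v ∈ S, (∀ l, φ l v = 0) → v = 0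
  hx : ∀ i, x i ∈ K
  hxT : Tendsto (fun i => ‖T (x i) - x i‖) U (𝓝 0)
  hσ : ∀ k, 0 < σ k
  hσ0 : Tendsto σ U (𝓝 0)
  hR : ∀ k, MapsTo (R k) K K
  hRlip : ∀ k, ∀ a ∈ K, ∀ b ∈ K, ‖R k a - R k b‖ ≤ ‖a - b‖
  hRT : ∀ k, ∀ a ∈ K, ‖T (R k a) - R k a‖ ≤ σ k * d
  hRx : ∀ k, ∀ a ∈ K, σ k * ‖R k a - a‖ ≤ ‖T a - a‖

variable {X}

/-- A position of the strategy together with a family of outer maps. -/
structure St (X : Type u) [NormedAddCommGroup X] [NormedSpace ℝ X] where
  n : ℕ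
  m : ℝ
  G : StrongDual ℝ X
  t : ℝ
  C : ℝ
  Ψ : ℕ → X → X

namespace Frame

variable (F : Frame X)

/-- The outer maps are nearly the identity up to the remaining weight. -/
structure Valid (st : St X) : Prop where
  t0 : 0 ≤ st.t
  t1 : st.t ≤ 1
  C0 : 0 ≤ st.C
  maps : ∀ j, MapsTo (st.Ψ j) F.K F.K
  lip : ∀ j, ∀ a ∈ F.K, ∀ b ∈ F.K, ‖st.Ψ j a - st.Ψ j b‖ ≤ st.t * ‖a - b‖
  near : ∀ j, ∀ p ∈ F.K, ‖st.Ψ j p - p‖ ≤ (1 - st.t) * F.d + st.C * ‖F.T p - p‖

/-- The inequality certified by a point `W`. -/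
def Ineq (ε : ℝ) (st : St X) (W : X) (e : ℝ) : Prop :=
  ∀ᶠ j in (F.U : Filter ℕ),
    st.G (st.Ψ j W - st.Ψ j (F.x j)) + st.m * (st.t * F.d) ≤ ε * (st.t * F.d) + e

theorem node_gain {c : X} (hc : c ∈ F.K) (st : St X) (hv : F.Valid st) {e : ℝ} (he : 0 < e) :
    ∀ᶠ k in (F.U : Filter ℕ), ∃ g : StrongDual ℝ X, Adm F.z st.n g ∧
      ∀ᶠ j in (F.U : Filter ℕ),
        st.t * F.d - e ≤ g (st.Ψ j (F.R k c) - st.Ψ j (F.x j)) := by
  obtain ⟨M, hM⟩ := F.bounded
  set e' : ℝ := e / 8 with he'_def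
  have he' : 0 < e' := by positivity
  have hin : ∀ k j, st.Ψ j (F.R k c) ∈ F.K := fun k j => hv.maps j (F.hR k hc)
  choose V₁ hV₁ using fun k => exists_weakLim F.href F.U (fun j => st.Ψ j (F.R k c)) M
    fun j => hM _ (hin k j)
  have hV₁K : ∀ k, V₁ k ∈ F.K := fun k =>
    weakLim_mem (hV₁ k) F.hcl F.hconv (Eventually.of_forall (hin k))
  obtain ⟨V, hV⟩ := exists_weakLim F.href F.U V₁ M fun k => hM _ (hV₁K k)
  have hVK : V ∈ F.K := weakLim_mem hV F.hcl F.hconv (Eventually.of_forall hV₁K)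
  obtain ⟨Y, hY⟩ := exists_weakLim F.href F.U (fun j => st.Ψ j (F.x j)) M
    fun j => hM _ (hv.maps j (F.hx j))
  choose f hf1 hf2 using fun k => exists_dual_vector'' ℝ (F.R k c - V)
  obtain ⟨f₀, hf₀, hlim⟩ := exists_dualLim F.U f hf1
  have hzero : ∀ v, ∀ b > 0, ∀ᶠ k in (F.U : Filter ℕ), |f k v - f₀ v| ≤ b := fun v b hb => by
    have h := (hlim v).sub_const (f₀ v)
    rw [sub_self] at h
    simpa [Real.dist_eq] using h.eventually (closedBall_mem_nhds 0 hb)
  have hadm : ∀ᶠ k in (F.U : Filter ℕ), Adm F.z st.n (f k - f₀) := by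
    have h : ∀ᶠ k in (F.U : Filter ℕ),
        ∀ l ∈ Finset.range (st.n + 1), |f k (F.z l) - f₀ (F.z l)| ≤ (1 / 2 : ℝ) ^ st.n :=
      (Finset.range (st.n + 1)).eventually_all.mpr fun l _ => hzero _ _ (by positivity)
    filter_upwards [h] with k hk
    exact ⟨(norm_sub_le _ _).trans (by linarith [hf1 k]), fun l hl =>
      hk l (Finset.mem_range.mpr (by omega))⟩
  obtain ⟨δ, hδ, hgk⟩ := F.gk V hVK e' he'
  have hsmall : ∀ b > 0, ∀ᶠ k in (F.U : Filter ℕ), F.σ k * F.d * (1 + st.C) ≤ b := fun b hb => by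
    have h := (F.hσ0.mul_const F.d).mul_const (1 + st.C)
    simp only [zero_mul] at h
    exact h.eventually (eventually_le_nhds hb)
  have hV' : ∀ᶠ k in (F.U : Filter ℕ), |f₀ (V₁ k) - f₀ V| ≤ e' := by
    have h := (hV f₀).sub_const (f₀ V)
    rw [sub_self] at h
    simpa [Real.dist_eq] using h.eventually (closedBall_mem_nhds 0 he')
  filter_upwards [hadm, hsmall δ hδ, hsmall e' he', hzero V e' he', hzero Y e' he', hV']
    with k hk hkδ hke hkV hkY hkV₁
  refine ⟨f k - f₀, hk, ?_⟩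
  have h1 : ∀ᶠ j in (F.U : Filter ℕ), |f₀ (st.Ψ j (F.R k c)) - f₀ (V₁ k)| ≤ e' := by
    have h := (hV₁ k f₀).sub_const (f₀ (V₁ k))
    rw [sub_self] at h
    simpa [Real.dist_eq] using h.eventually (closedBall_mem_nhds 0 he')
  have h2 : ∀ᶠ j in (F.U : Filter ℕ),
      |(f k - f₀) (st.Ψ j (F.x j)) - (f k - f₀) Y| ≤ e' := by
    have h := (hY (f k - f₀)).sub_const ((f k - f₀) Y)
    rw [sub_self] at h
    simpa [Real.dist_eq] using h.eventually (closedBall_mem_nhds 0 he')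
  filter_upwards [h1, h2] with j hj1 hj2
  set a := F.R k c with ha_def
  have haK : a ∈ F.K := F.hR k hc
  have hσd : 0 ≤ F.σ k * F.d := mul_nonneg (F.hσ k).le F.hd.le
  have hdisp : ‖F.T a - a‖ ≤ δ :=
    (F.hRT k c hc).trans (le_trans (le_mul_of_one_le_right hσd (by linarith [hv.C0])) hkδ)
  have hnorm : F.d - e' ≤ f k a - f k V := by
    rw [← map_sub, hf2 k]
    simpa using hgk a haK hdisp
  have hnear : f k a - f k (st.Ψ j a) ≤ (1 - st.t) * F.d + e' := by
    rw [← map_sub]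
    refine ((le_abs_self _).trans (((f k).le_opNorm _).trans
      (mul_le_of_le_one_left (norm_nonneg _) (hf1 k)))).trans ?_
    rw [norm_sub_rev]
    refine (hv.near j a haK).trans (add_le_add le_rfl ?_)
    exact (mul_le_mul_of_nonneg_left (F.hRT k c hc) hv.C0).trans (by nlinarith)
  simp only [map_sub, ContinuousLinearMap.sub_apply] at hj2 ⊢
  have := abs_le.mp hj1
  have := abs_le.mp hj2
  have := abs_le.mp hkV
  have := abs_le.mp hkY
  have := abs_le.mp hkV₁
  linarith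

/-- One position after a move, seen through the slot `i`. -/
noncomputable def childSt (st : St X) (w : ℝ) (g : StrongDual ℝ X) (k : ℕ) (y : ℕ → X)
    (τ : ℕ → ℝ) (i : ℕ) : St X where
  n := st.n + 1
  m := st.m - w
  G := st.G + w • g
  t := st.t * τ i
  C := st.C + (F.σ k)⁻¹
  Ψ := fun j p => st.Ψ j (F.R k (slot y τ i p (F.x j)))

theorem childSt_congr (st : St X) (w : ℝ) (g : StrongDual ℝ X) (k : ℕ) {y y' : ℕ → X}
    (τ : ℕ → ℝ) {i : ℕ} (h : ∀ l < i, y l = y' l) :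
    F.childSt st w g k y τ i = F.childSt st w g k y' τ i := by
  simp only [childSt, slot_congr τ h]

theorem valid_childSt {st : St X} (hv : F.Valid st) (w : ℝ) (g : StrongDual ℝ X) (k : ℕ)
    {y : ℕ → X} {τ : ℕ → ℝ} {i : ℕ} (hy : ∀ l < i, y l ∈ F.K) (hτ : ∀ l ≤ i, 0 ≤ τ l)
    (hsum : ∑ l ∈ Finset.range (i + 1), τ l ≤ 1) : F.Valid (F.childSt st w g k y τ i) := by
  have hτ1 : τ i ≤ 1 := le_trans (Finset.single_le_sum
    (fun l hl => hτ l (by rw [Finset.mem_range] at hl; omega))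
    (Finset.self_mem_range_succ i)) hsum
  have hslot : ∀ p ∈ F.K, ∀ j, slot y τ i p (F.x j) ∈ F.K := fun p hp j => by
    refine comb_mem F.hconv (fun l hl => ?_) (F.hx j) (fun l hl => hτ l (by omega)) hsum
    rcases eq_or_ne l i with rfl | hne
    · simpa using hp
    · rw [Function.update_of_ne hne]; exact hy l (by omega)
  refine ⟨mul_nonneg hv.t0 (hτ i le_rfl), mul_le_one₀ hv.t1 (hτ i le_rfl) hτ1,
    add_nonneg hv.C0 (inv_nonneg.mpr (F.hσ k).le), ?_, ?_, ?_⟩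
  · exact fun j p hp => hv.maps j (F.hR k (hslot p hp j))
  · intro j a ha b hb
    simp only [childSt]
    refine (hv.lip j _ (F.hR k (hslot a ha j)) _ (F.hR k (hslot b hb j))).trans ?_
    rw [mul_assoc]
    refine mul_le_mul_of_nonneg_left ((F.hRlip k _ (hslot a ha j) _ (hslot b hb j)).trans ?_) hv.t0
    rw [slot_sub, norm_smul, Real.norm_of_nonneg (hτ i le_rfl)]
  · intro j p hp
    simp only [childSt]
    have hRp : ‖F.R k p - p‖ ≤ (F.σ k)⁻¹ * ‖F.T p - p‖ := by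
      rw [le_inv_mul_iff₀ (F.hσ k)]
      exact F.hRx k p hp
    have h1 : ‖F.R k (slot y τ i p (F.x j)) - p‖ ≤
        (1 - τ i) * F.d + (F.σ k)⁻¹ * ‖F.T p - p‖ :=
      (norm_sub_le_norm_sub_add_norm_sub _ (F.R k p) _).trans (add_le_add
        ((F.hRlip k _ (hslot p hp j) _ hp).trans
          (norm_slot_sub_le F.hdiam hy hp (F.hx j) hτ hsum)) hRp)
    have h2 := (norm_sub_le_norm_sub_add_norm_sub (st.Ψ j (F.R k (slot y τ i p (F.x j))))
      (st.Ψ j p) p).trans (add_le_add ((hv.lip j _ (F.hR k (hslot p hp j)) _ hp).trans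
        (mul_le_mul_of_nonneg_left h1 hv.t0)) (hv.near j p hp))
    refine h2.trans ?_
    have : 0 ≤ (F.σ k)⁻¹ * ‖F.T p - p‖ :=
      mul_nonneg (inv_nonneg.mpr (F.hσ k).le) (norm_nonneg _)
    nlinarith [hv.t0, hv.t1]

/-- All finite families of winning positions of ordinal `o` have certified points. -/
def Good (ε : ℝ) (o : Ordinal.{u}) : Prop :=
  ∀ L : List (St X), (∀ st ∈ L, F.Valid st ∧ WinAt F.z F.S ε o st.n st.m st.G) →
    ∀ δ > 0, ∀ e > 0, ∃ W ∈ F.K, ‖F.T W - W‖ ≤ δ ∧ ∀ st ∈ L, F.Ineq ε st W e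

/-- Families of winning positions below `o`. -/
def Below (ε : ℝ) (o : Ordinal.{u}) (L : List (St X)) : Prop :=
  ∀ st ∈ L, F.Valid st ∧ ∃ o' < o, WinAt F.z F.S ε o' st.n st.m st.G

theorem exists_certified_ultrafilter {ε : ℝ} {o : Ordinal.{u}}
    (ih : ∀ o' < o, F.Good ε o') :
    ∃ (U' : Ultrafilter F.K), ∀ L, F.Below ε o L → ∀ δ > 0, ∀ e > 0,
      ∀ᶠ W : F.K in (U' : Filter F.K),
        ‖F.T (W : X) - (W : X)‖ ≤ δ ∧ ∀ st ∈ L, F.Ineq ε st (W : X) e := by
  classical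
  have hex : ∀ L, F.Below ε o L → ∀ δ > 0, ∀ e > 0,
      ∃ W ∈ F.K, ‖F.T W - W‖ ≤ δ ∧ ∀ st ∈ L, F.Ineq ε st W e := by
    intro L hL δ hδ e he
    by_cases hnil : L = []
    · obtain ⟨j, hj⟩ := (F.hxT.eventually (eventually_le_nhds hδ)).exists
      exact ⟨F.x j, F.hx j, hj, by simp [hnil]⟩
    choose hv o' ho' hW using hL
    obtain ⟨⟨st₀, h₀⟩, -, hmax⟩ := L.attach.toFinset.exists_max_image
      (fun p => o' p.1 p.2) (by simpa [Finset.nonempty_iff_ne_empty] using hnil)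
    exact ih _ (ho' st₀ h₀) L (fun st hst => ⟨hv st hst, (hW st hst).mono
      (hmax ⟨st, hst⟩ (by simp))⟩) δ hδ e he
  let ι := {L : List (St X) // F.Below ε o L} × {δ : ℝ // 0 < δ} × {e : ℝ // 0 < e}
  let good : ι → Set F.K := fun i =>
    {W | ‖F.T (W : X) - (W : X)‖ ≤ i.2.1 ∧ ∀ st ∈ i.1.1, F.Ineq ε st (W : X) i.2.2}
  have hne : ∀ i : ι, (good i).Nonempty := fun i => by
    obtain ⟨W, hW, h⟩ := hex i.1.1 i.1.2 i.2.1 i.2.1.2 i.2.2 i.2.2.2
    exact ⟨⟨W, hW⟩, h⟩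
  have : Nonempty ι := ⟨⟨⟨[], fun st h => by simp at h⟩, ⟨1, one_pos⟩, ⟨1, one_pos⟩⟩⟩
  have hineq : ∀ {st : St X} {W : X} {e e' : ℝ}, e ≤ e' → F.Ineq ε st W e → F.Ineq ε st W e' :=
    fun h h' => h'.mono fun j hj => hj.trans (add_le_add le_rfl h)
  have hdir : Directed (· ≥ ·) (fun i : ι => 𝓟 (good i)) := by
    rintro ⟨⟨L, hL⟩, ⟨δ, hδ⟩, ⟨e, he⟩⟩ ⟨⟨L', hL'⟩, ⟨δ', hδ'⟩, ⟨e', he'⟩⟩
    refine ⟨⟨⟨L ++ L', fun st h => (List.mem_append.mp h).elim (hL st) (hL' st)⟩,
      ⟨min δ δ', lt_min hδ hδ'⟩, ⟨min e e', lt_min he he'⟩⟩, ?_, ?_⟩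
    · exact principal_mono.mpr fun W hW => ⟨hW.1.trans (min_le_left _ _), fun st h =>
        hineq (min_le_left _ _) (hW.2 st (List.mem_append_left _ h))⟩
    · exact principal_mono.mpr fun W hW => ⟨hW.1.trans (min_le_right _ _), fun st h =>
        hineq (min_le_right _ _) (hW.2 st (List.mem_append_right _ h))⟩
  have : NeBot (⨅ i, 𝓟 (good i)) :=
    iInf_neBot_of_directed' hdir fun i => principal_neBot_iff.mpr (hne i)
  refine ⟨Ultrafilter.of (⨅ i, 𝓟 (good i)), fun L hL δ hδ e he => ?_⟩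
  let i₀ : ι := (⟨L, hL⟩, ⟨δ, hδ⟩, ⟨e, he⟩)
  exact ((Ultrafilter.of_le _).trans (iInf_le _ i₀)) (mem_principal_self (good i₀))

/-- A sequence drawn from an ultrafilter, each term in a prescribed large set depending on
the previous ones. -/
theorem exists_seq {α : Type*} [Nonempty α] (U' : Ultrafilter α) (P : ℕ → (ℕ → α) → α → Prop)
    (hP : ∀ i y, ∀ᶠ a in (U' : Filter α), P i y a)
    (hcongr : ∀ i y y', (∀ l < i, y l = y' l) → ∀ a, P i y a → P i y' a) :
    ∃ y : ℕ → α, ∀ i, P i y (y i) := by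
  classical
  choose pick hpick using fun i y => (hP i y).exists
  let Y : ℕ → ℕ → α := fun i => Nat.rec (fun _ => Classical.arbitrary α)
    (fun i Y => Function.update Y i (pick i Y)) i
  have hY : ∀ i j, j ≤ i → ∀ l < j, Y i l = Y j l := by
    intro i
    induction i with
    | zero => intro j hj l hl; omega
    | succ i ih =>
      intro j hj l hl
      rcases eq_or_lt_of_le hj with rfl | h
      · rfl
      · show Function.update (Y i) i (pick i (Y i)) l = Y j l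
        rw [Function.update_of_ne (by omega)]
        exact ih j (by omega) l hl
  refine ⟨fun i => pick i (Y i), fun i => hcongr i (Y i) _ (fun l hl => ?_) _ (hpick i (Y i))⟩
  rw [hY i (l + 1) hl l (by omega)]
  show Function.update (Y l) l (pick l (Y l)) l = _
  rw [Function.update_self]

theorem good_all {ε : ℝ} (hε : 0 ≤ ε) (o : Ordinal.{u}) : F.Good ε o := by
  classical
  induction o using WellFoundedLT.induction with
  | ind o ih =>
  intro L hL δ hδ e he
  obtain ⟨U', hU'⟩ := F.exists_certified_ultrafilter ih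
  obtain ⟨M, hM⟩ := F.bounded
  obtain ⟨c, hc⟩ := exists_weakLim F.href U' Subtype.val M fun W => hM _ W.2
  have hcK : c ∈ F.K := weakLim_mem hc F.hcl F.hconv (Eventually.of_forall fun W => W.2)
  have hw : ∀ st ∈ L, ∃ w, 0 ≤ w ∧ w ≤ st.m ∧ ((st.m = 0 ∧ ∀ Z ∈ F.S, st.G Z ≤ ε * ‖Z‖) ∨
      ∀ g, Adm F.z st.n g → ∃ o' < o, WinAt F.z F.S ε o' (st.n + 1) (st.m - w) (st.G + w • g)) := by
    intro st hst
    obtain ⟨n, m, G, t, C, Ψ⟩ := st
    obtain ⟨-, h⟩ := hL _ hst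
    simp only at h ⊢
    cases h with
    | done hG => exact ⟨0, le_rfl, le_rfl, Or.inl ⟨rfl, hG⟩⟩
    | step w next hw hwm hlt h => exact ⟨w, hw, hwm, Or.inr fun g hg => ⟨next g, hlt g hg, h g hg⟩⟩
  let w : St X → ℝ := fun st => if h : st ∈ L then (hw st h).choose else 0
  have hwspec : ∀ st ∈ L, 0 ≤ w st ∧ w st ≤ st.m ∧ ((st.m = 0 ∧ ∀ Z ∈ F.S, st.G Z ≤ ε * ‖Z‖) ∨
      ∀ g, Adm F.z st.n g → ∃ o' < o,
        WinAt F.z F.S ε o' (st.n + 1) (st.m - w st) (st.G + w st • g)) := fun st hst => by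
    simp only [w, dif_pos hst]
    exact (hw st hst).choose_spec
  set B : ℝ := ε + 1 + (L.map fun st => ‖st.G‖ + 3 * |st.m|).sum with hB_def
  have hBst : ∀ st ∈ L, ‖st.G‖ + 3 * |st.m| + ε + 1 ≤ B := fun st hst => by
    have := List.single_le_sum (l := L.map fun st => ‖st.G‖ + 3 * |st.m|)
      (by simp only [List.mem_map]; rintro _ ⟨a, -, rfl⟩; positivity) _
      (List.mem_map_of_mem hst)
    rw [hB_def]
    linarith
  have hB1 : 1 ≤ B := by
    have : (0 : ℝ) ≤ (L.map fun st => ‖st.G‖ + 3 * |st.m|).sum :=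
      List.sum_nonneg (by simp only [List.mem_map]; rintro _ ⟨a, -, rfl⟩; positivity)
    rw [hB_def]
    linarith
  set e₁ : ℝ := e / (2 + 5 * B) with he₁_def
  have he₁ : 0 < e₁ := by positivity
  -- the parameter of the resolvent and the functionals
  have hk : ∀ᶠ k in (F.U : Filter ℕ), F.σ k * F.d ≤ δ ∧ ∀ st ∈ L.toFinset,
      ∃ g : StrongDual ℝ X, Adm F.z st.n g ∧ ∀ᶠ j in (F.U : Filter ℕ),
        st.t * F.d - e₁ ≤ g (st.Ψ j (F.R k c) - st.Ψ j (F.x j)) := by
    refine Eventually.and ?_ (L.toFinset.eventually_all.mpr fun st hst =>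
      F.node_gain hcK st (hL st (List.mem_toFinset.mp hst)).1 he₁)
    have h := F.hσ0.mul_const F.d
    rw [zero_mul] at h
    exact h.eventually (eventually_le_nhds hδ)
  obtain ⟨k, hkδ, hkg⟩ := hk.exists
  choose! g hgA hgj using hkg
  -- a grid of weights for each index
  let Q : ℕ → ℕ := fun i => ⌈4 * B * (i + 2) * F.d * 2 ^ (i + 1) / e₁⌉₊ + 1
  let grid : (i : ℕ) → (Fin (i + 1) → Fin (Q i + 1)) → ℕ → ℝ := fun i q l =>
    if h : l < i + 1 then ((q ⟨l, h⟩ : ℕ) : ℝ) / Q i else 0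
  let kids : ℕ → (ℕ → F.K) → List (St X) := fun i y =>
    L.flatMap fun st =>
      ((Finset.univ.filter fun q : Fin (i + 1) → Fin (Q i + 1) =>
        (∑ l ∈ Finset.range (i + 1), grid i q l ≤ 1) ∧
          ∀ g', Adm F.z st.n g' → ∃ o' < o,
            WinAt F.z F.S ε o' (st.n + 1) (st.m - w st) (st.G + w st • g')).toList).map
        fun q => F.childSt st (w st) (g st) k (fun l => (y l : X)) (grid i q) i
  have hkids : ∀ i y, F.Below ε o (kids i y) := by
    intro i y st' hst'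
    simp only [kids, List.mem_flatMap, List.mem_map, Finset.mem_toList, Finset.mem_filter,
      Finset.mem_univ, true_and] at hst'
    obtain ⟨st, hst, q, ⟨hq, hwin⟩, rfl⟩ := hst'
    exact ⟨F.valid_childSt (hL st hst).1 _ _ _ (fun l _ => (y l).2)
      (fun l _ => by simp only [grid]; split <;> positivity) hq,
      hwin _ (hgA st (List.mem_toFinset.mpr hst))⟩
  have : Nonempty F.K := ⟨⟨c, hcK⟩⟩
  obtain ⟨y, hy⟩ := exists_seq U' (fun i y a => (∀ st' ∈ kids i y, F.Ineq ε st' a (e₁ / 2 ^ (i + 1))) ∧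
      ∀ l ∈ Finset.range (i + 1), |F.φ l a - F.φ l c| ≤ (1 / 2 : ℝ) ^ i)
    (fun i y => ((hU' _ (hkids i y) 1 one_pos _ (by positivity)).mono fun a h => h.2).and
      ((Finset.range (i + 1)).eventually_all.mpr fun l _ => by
        have h := (hc (F.φ l)).sub_const (F.φ l c)
        rw [sub_self] at h
        simpa [Real.dist_eq] using h.eventually
          (closedBall_mem_nhds 0 (by positivity : (0 : ℝ) < (1 / 2) ^ i))))
    (fun i y y' hyy a ha => ⟨by
      have : kids i y' = kids i y := by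
        simp only [kids]
        congr 1
        funext st
        congr 1
        funext q
        exact F.childSt_congr st _ _ k _ fun l hl => by rw [hyy l hl]
      rw [this]
      exact ha.1, ha.2⟩)
  let y' : ℕ → X := fun l => (y l : X)
  have hy'K : ∀ l, y' l ∈ F.K := fun l => (y l).2
  -- Mazur
  have hcmem : c ∈ closure (convexHull ℝ (range y')) := by
    obtain ⟨U₁, hU₁⟩ := Ultrafilter.exists_le (atTop : Filter ℕ)
    obtain ⟨c', hc'⟩ := exists_weakLim F.href U₁ y' M fun l => hM _ (hy'K l)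
    have hc'K : c' ∈ F.K := weakLim_mem hc' F.hcl F.hconv (Eventually.of_forall hy'K)
    have : c' - c = 0 := by
      refine F.hsep _ (F.S.sub_mem (F.hKS hc'K) (F.hKS hcK)) fun l => ?_
      rw [map_sub, sub_eq_zero]
      refine tendsto_nhds_unique (hc' (F.φ l)) (Tendsto.mono_left ?_ hU₁)
      rw [tendsto_iff_norm_sub_tendsto_zero]
      refine squeeze_zero' (Eventually.of_forall fun _ => norm_nonneg _) ?_
        (tendsto_pow_atTop_nhds_zero_of_lt_one (r := (1 / 2 : ℝ)) (by norm_num) (by norm_num))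
      filter_upwards [eventually_ge_atTop l] with i hi
      exact (hy i).2 l (Finset.mem_range.mpr (by omega))
    rw [sub_eq_zero] at this
    subst this
    exact weakLim_mem hc' isClosed_closure (convex_convexHull ℝ _).closure
      (Eventually.of_forall fun l => subset_closure (subset_convexHull ℝ _ (mem_range_self l)))
  obtain ⟨v, hv, hvc⟩ := Metric.mem_closure_iff.mp hcmem e₁ he₁
  obtain ⟨N, τ, hτ0, hτ1, rfl⟩ := exists_comb_of_mem_convexHull hv
  set u : X := ∑ l ∈ Finset.range N, τ l • y' l with hu_def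
  have huK : u ∈ F.K := F.hconv.sum_mem (fun l _ => hτ0 l) hτ1 fun l _ => hy'K l
  rw [dist_eq_norm, norm_sub_rev] at hvc
  refine ⟨F.R k u, F.hR k huK, (F.hRT k u huK).trans hkδ, fun st hst => ?_⟩
  obtain ⟨hv, hwin⟩ := hL st hst
  obtain ⟨hw0, hwm, hcase⟩ := hwspec st hst
  rcases hcase with ⟨hm0, hG⟩ | hnext
  · refine Eventually.of_forall fun j => ?_
    have h1 : ‖st.Ψ j (F.R k u) - st.Ψ j (F.x j)‖ ≤ st.t * F.d :=
      (hv.lip j _ (F.hR k huK) _ (F.hx j)).trans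
        (mul_le_mul_of_nonneg_left (F.hdiam _ (F.hR k huK) _ (F.hx j)) hv.t0)
    have h2 := hG (st.Ψ j (F.R k u) - st.Ψ j (F.x j))
      (F.S.sub_mem (F.hKS (hv.maps j (F.hR k huK))) (F.hKS (hv.maps j (F.hx j))))
    have := mul_le_mul_of_nonneg_left h1 hε
    rw [hm0, zero_mul, add_zero]
    linarith
  set G' : StrongDual ℝ X := st.G + w st • g st with hG'_def
  set m' : ℝ := st.m - w st with hm'_def
  have hgst := hgA st (List.mem_toFinset.mpr hst)
  have hG' : ‖G'‖ + |m'| + ε ≤ B := by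
    have h1 : ‖G'‖ ≤ ‖st.G‖ + 2 * |st.m| := by
      refine (norm_add_le _ _).trans (add_le_add le_rfl ?_)
      rw [norm_smul, Real.norm_of_nonneg hw0, mul_comm 2]
      exact mul_le_mul (hwm.trans (le_abs_self _)) hgst.1 (norm_nonneg _) (abs_nonneg _)
    have h2 : |m'| ≤ |st.m| := by
      rw [hm'_def, abs_of_nonneg (by linarith : (0 : ℝ) ≤ st.m - w st)]
      linarith [le_abs_self st.m]
    linarith [hBst st hst]
  -- the children
  let τq : ℕ → ℕ → ℝ := fun i l => if l < i + 1 then (⌊τ l * Q i⌋₊ : ℝ) / Q i else 0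
  have hQ : ∀ i, (0 : ℝ) < Q i := fun i => by simp only [Q]; positivity
  have hτle : ∀ l < N, τ l ≤ 1 := fun l hl =>
    hτ1 ▸ Finset.single_le_sum (fun a _ => hτ0 a) (Finset.mem_range.mpr hl)
  have hpre : ∀ i ≤ N, ∑ l ∈ Finset.range i, τ l ≤ 1 := fun i hi =>
    hτ1 ▸ Finset.sum_le_sum_of_subset_of_nonneg (Finset.range_mono hi) fun l _ _ => hτ0 l
  have hround : ∀ i l, l ≤ i → τq i l ≤ τ l ∧ |τ l - τq i l| ≤ 1 / Q i := by
    intro i l hl
    simp only [τq, if_pos (Nat.lt_succ_of_le hl)]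
    have h1 := Nat.floor_le (mul_nonneg (hτ0 l) (hQ i).le)
    have h2 := Nat.lt_floor_add_one (τ l * Q i)
    have h3 : ((⌊τ l * Q i⌋₊ : ℝ)) / Q i ≤ τ l := by rwa [div_le_iff₀ (hQ i)]
    refine ⟨h3, ?_⟩
    rw [abs_of_nonneg (sub_nonneg.mpr h3), sub_le_iff_le_add, ← add_div, le_div_iff₀ (hQ i)]
    linarith
  have hchild : ∀ i ∈ Finset.range N,
      F.Ineq ε (F.childSt st (w st) (g st) k y' (τq i) i) (y' i) (e₁ / 2 ^ (i + 1)) := by
    intro i hi
    rw [Finset.mem_range] at hi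
    refine (hy i).1 _ ?_
    simp only [kids, List.mem_flatMap, List.mem_map, Finset.mem_toList, Finset.mem_filter,
      Finset.mem_univ, true_and]
    let q : Fin (i + 1) → Fin (Q i + 1) := fun l => ⟨⌊τ l * Q i⌋₊, Nat.lt_succ_of_le
      (Nat.floor_le_of_le (mul_le_of_le_one_left (hQ i).le (hτle l (by have := l.2; omega))))⟩
    have hq : grid i q = τq i := by
      funext l
      simp only [grid, τq, q]
      split <;> simp
    refine ⟨st, hst, q, ⟨?_, hnext⟩, by rw [hq]⟩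
    rw [hq]
    refine (Finset.sum_le_sum fun l hl => (hround i l ?_).1).trans (hpre (i + 1) hi)
    rw [Finset.mem_range] at hl
    omega
  have hxsmall : ∀ᶠ j in (F.U : Filter ℕ), ‖F.R k (F.x j) - F.x j‖ ≤ e₁ := by
    filter_upwards [F.hxT.eventually (eventually_le_nhds (mul_pos (F.hσ k) he₁))] with j hj
    exact le_of_mul_le_mul_left ((F.hRx k _ (F.hx j)).trans hj) (F.hσ k)
  filter_upwards [(Finset.range N).eventually_all.mpr hchild, hxsmall,
    hgj st (List.mem_toFinset.mpr hst)] with j hjc hjx hjg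
  let H : ℕ → X := fun i => st.Ψ j (F.R k (comb y' τ i (F.x j)))
  have hstep : ∀ i ∈ Finset.range N, G' (H (i + 1) - H i) + m' * (st.t * τ i * F.d) ≤
      ε * (st.t * τ i * F.d) + 2 * (e₁ / 2 ^ (i + 1)) := by
    intro i hi
    have hc' := hjc i hi
    rw [Finset.mem_range] at hi
    simp only [childSt] at hc'
    set h : ℝ := 1 / Q i with hh_def
    have hmem : ∀ (p : X), p ∈ F.K → ∀ τ'' : ℕ → ℝ, (∀ l ≤ i, 0 ≤ τ'' l) →
        ∑ l ∈ Finset.range (i + 1), τ'' l ≤ 1 → slot y' τ'' i p (F.x j) ∈ F.K := by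
      intro p hp τ'' h0 h1
      refine comb_mem F.hconv (fun l hl => ?_) (F.hx j) (fun l hl => h0 l (by omega)) h1
      rcases eq_or_ne l i with rfl | hne
      · simpa using hp
      · rw [Function.update_of_ne hne]; exact hy'K l
    have hq0 : ∀ l ≤ i, 0 ≤ τq i l := fun l _ => by simp only [τq]; split <;> positivity
    have hq1 : ∑ l ∈ Finset.range (i + 1), τq i l ≤ 1 := by
      refine (Finset.sum_le_sum fun l hl => (hround i l ?_).1).trans (hpre (i + 1) hi)
      rw [Finset.mem_range] at hl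
      omega
    have hdev : ∀ p ∈ F.K, ‖st.Ψ j (F.R k (slot y' τ i p (F.x j))) -
        st.Ψ j (F.R k (slot y' (τq i) i p (F.x j)))‖ ≤ ((i + 1 : ℕ) : ℝ) * (h * F.d) := by
      intro p hp
      have a1 := hmem p hp τ (fun l _ => hτ0 l) (hpre (i + 1) hi)
      have a2 := hmem p hp (τq i) hq0 hq1
      refine (hv.lip j _ (F.hR k a1) _ (F.hR k a2)).trans ?_
      refine (mul_le_of_le_one_left (norm_nonneg _) hv.t1).trans ((F.hRlip k _ a1 _ a2).trans ?_)
      exact norm_slot_weights_le F.hdiam (fun l _ => hy'K l) hp (F.hx j) fun l hl => (hround i l hl).2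
    have e1 : H (i + 1) = st.Ψ j (F.R k (slot y' τ i (y' i) (F.x j))) := by
      simp only [H, slot_self]
    have e2 : H i = st.Ψ j (F.R k (slot y' τ i (F.x j) (F.x j))) := by
      simp only [H, slot_base]
    set p₁ := st.Ψ j (F.R k (slot y' (τq i) i (y' i) (F.x j)))
    set p₀ := st.Ψ j (F.R k (slot y' (τq i) i (F.x j) (F.x j)))
    have d1 : G' (H (i + 1)) - G' p₁ ≤ ‖G'‖ * (((i + 1 : ℕ) : ℝ) * (h * F.d)) := by
      rw [← map_sub, e1]
      exact (le_abs_self _).trans ((G'.le_opNorm _).trans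
        (mul_le_mul_of_nonneg_left (hdev _ (hy'K i)) (norm_nonneg _)))
    have d2 : G' p₀ - G' (H i) ≤ ‖G'‖ * (((i + 1 : ℕ) : ℝ) * (h * F.d)) := by
      rw [← map_sub, e2]
      refine (le_abs_self _).trans ((G'.le_opNorm _).trans
        (mul_le_mul_of_nonneg_left ?_ (norm_nonneg _)))
      rw [norm_sub_rev]
      exact hdev _ (F.hx j)
    have hτi := hround i i le_rfl
    have hh0 : 0 ≤ h := by positivity
    have htd : 0 ≤ st.t * F.d := mul_nonneg hv.t0 F.hd.le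
    have d3 : (m' - ε) * (st.t * τ i * F.d) - (m' - ε) * (st.t * τq i i * F.d) ≤
        (|m'| + ε) * (h * F.d) := by
      have hr : (m' - ε) * (st.t * τ i * F.d) - (m' - ε) * (st.t * τq i i * F.d) =
          (m' - ε) * ((τ i - τq i i) * (st.t * F.d)) := by ring
      rw [hr]
      have h1 : (0 : ℝ) ≤ τ i - τq i i := sub_nonneg.mpr hτi.1
      have h2 : (τ i - τq i i) * (st.t * F.d) ≤ h * F.d :=
        mul_le_mul ((le_abs_self _).trans hτi.2) (mul_le_of_le_one_left F.hd.le hv.t1) htd hh0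
      calc _ ≤ (|m'| + ε) * ((τ i - τq i i) * (st.t * F.d)) :=
            mul_le_mul_of_nonneg_right (by linarith [le_abs_self m']) (mul_nonneg h1 htd)
        _ ≤ _ := mul_le_mul_of_nonneg_left h2 (by positivity)
    have herr : 2 * (B * (((i + 1 : ℕ) : ℝ) * (h * F.d))) + B * (h * F.d) ≤ e₁ / 2 ^ (i + 1) := by
      have hQi : 4 * B * (i + 2) * F.d * 2 ^ (i + 1) / e₁ ≤ (Q i : ℝ) := by
        simp only [Q]
        push_cast
        linarith [Nat.le_ceil (4 * B * (i + 2) * F.d * 2 ^ (i + 1) / e₁)]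
      rw [hh_def, le_div_iff₀ (by positivity)]
      rw [div_le_iff₀ he₁] at hQi
      push_cast
      have hpos : (0 : ℝ) ≤ B * F.d * 2 ^ (i + 1) := by
        have := F.hd
        positivity
      have : (2 * (B * (((i : ℝ) + 1) * (1 / Q i * F.d))) + B * (1 / Q i * F.d)) * 2 ^ (i + 1) =
          (2 * ((i : ℝ) + 1) + 1) * (B * F.d * 2 ^ (i + 1)) / Q i := by
        ring
      rw [this, div_le_iff₀ (hQ i)]
      nlinarith
    have n1 : ‖G'‖ * (((i + 1 : ℕ) : ℝ) * (h * F.d)) ≤ B * (((i + 1 : ℕ) : ℝ) * (h * F.d)) :=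
      mul_le_mul_of_nonneg_right (by linarith [abs_nonneg m'])
        (mul_nonneg (Nat.cast_nonneg _) (mul_nonneg hh0 F.hd.le))
    have n2 : (|m'| + ε) * (h * F.d) ≤ B * (h * F.d) :=
      mul_le_mul_of_nonneg_right (by linarith [norm_nonneg G']) (mul_nonneg hh0 F.hd.le)
    simp only [map_sub] at hc' ⊢
    linarith
  have hsum := Finset.sum_le_sum hstep
  rw [Finset.sum_add_distrib, ← map_sum, Finset.sum_range_sub] at hsum
  simp only [mul_assoc st.t, ← Finset.mul_sum, ← Finset.sum_mul, hτ1, one_mul] at hsum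
  have hgeom : ∑ i ∈ Finset.range N, e₁ / 2 ^ (i + 1) ≤ e₁ := by
    have h := sum_geometric_two_le N
    calc ∑ i ∈ Finset.range N, e₁ / 2 ^ (i + 1)
        = e₁ / 2 * ∑ i ∈ Finset.range N, (1 / 2 : ℝ) ^ i := by
          rw [Finset.mul_sum]
          exact Finset.sum_congr rfl fun i _ => by rw [div_pow, one_pow, pow_succ]; ring
      _ ≤ e₁ / 2 * 2 := by gcongr
      _ = e₁ := by ring
  have hH0 : H 0 = st.Ψ j (F.R k (F.x j)) := by simp only [H, comb_zero]
  have hHN : H N = st.Ψ j (F.R k u) := by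
    simp only [H, comb, hτ1, sub_self, zero_smul, add_zero, hu_def]
  rw [hH0, hHN] at hsum
  have hP : ‖st.Ψ j (F.R k (F.x j)) - st.Ψ j (F.x j)‖ ≤ e₁ :=
    (hv.lip j _ (F.hR k (F.hx j)) _ (F.hx j)).trans
      ((mul_le_of_le_one_left (norm_nonneg _) hv.t1).trans hjx)
  have hW : ‖st.Ψ j (F.R k c) - st.Ψ j (F.R k u)‖ ≤ e₁ :=
    (hv.lip j _ (F.hR k hcK) _ (F.hR k huK)).trans
      ((mul_le_of_le_one_left (norm_nonneg _) hv.t1).trans
        ((F.hRlip k _ hcK _ huK).trans (by rw [norm_sub_rev]; exact hvc.le)))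
  have g1 : g st (st.Ψ j (F.R k c)) - g st (st.Ψ j (F.R k u)) ≤ 2 * e₁ := by
    rw [← map_sub]
    exact (le_abs_self _).trans (((g st).le_opNorm _).trans
      (mul_le_mul hgst.1 hW (norm_nonneg _) (by norm_num)))
  have g2 : g st (st.Ψ j (F.R k (F.x j))) - g st (st.Ψ j (F.x j)) ≤ 2 * e₁ := by
    rw [← map_sub]
    exact (le_abs_self _).trans (((g st).le_opNorm _).trans
      (mul_le_mul hgst.1 hP (norm_nonneg _) (by norm_num)))
  have g3 : st.G (st.Ψ j (F.R k (F.x j))) - st.G (st.Ψ j (F.x j)) ≤ ‖st.G‖ * e₁ := by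
    rw [← map_sub]
    exact (le_abs_self _).trans ((st.G.le_opNorm _).trans
      (mul_le_mul_of_nonneg_left hP (norm_nonneg _)))
  simp only [map_sub] at hjg
  have hwg : w st * (st.t * F.d - 5 * e₁) ≤
      w st * (g st (st.Ψ j (F.R k u)) - g st (st.Ψ j (F.R k (F.x j)))) :=
    mul_le_mul_of_nonneg_left (by linarith) hw0
  simp only [hG'_def, hm'_def, ContinuousLinearMap.add_apply, ContinuousLinearMap.smul_apply,
    smul_eq_mul, map_sub] at hsum
  rw [Finset.sum_add_distrib] at hsum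
  simp only [← Finset.mul_sum, ← Finset.sum_mul, hτ1, one_mul] at hsum
  simp only [map_sub]
  have hfin : 2 * e₁ + ‖st.G‖ * e₁ + 5 * (w st * e₁) ≤ e := by
    have h1 : ‖st.G‖ + 5 * w st ≤ 5 * B := by
      linarith [hBst st hst, norm_nonneg st.G, le_abs_self st.m, abs_nonneg st.m]
    have h2 := mul_le_mul_of_nonneg_right h1 he₁.le
    have h3 : e₁ * (2 + 5 * B) = e := by rw [he₁_def]; field_simp
    linarith
  linarith

end Frame

end Vale.Agent.P079.Full
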