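import Vale.Agent.P079.Basic

/-!
Minimal invariant sets are separable, and carry countable norming families.
-/

open Filter Topology Metric Set TopologicalSpace

namespace Vale.Agent.P079.Full

universe u

variable {X : Type u} [NormedAddCommGroup X] [NormedSpace ℝ X] {K : Set X} {T : X → X}

theorem isSeparable_minimal (hne : K.Nonempty) (hcl : IsClosed K) (hconv : Convex ℝ K)
    (hKT : MapsTo T K K)
    (hmin : ∀ K' ⊆ K, K'.Nonempty → IsClosed K' → Convex ℝ K' → MapsTo T K' K' → K' = K)
    (hT : ∀ x ∈ K, ∀ y ∈ K, ‖T x - T y‖ ≤ ‖x - y‖) :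
    IsSeparable K := by
  obtain ⟨c, hc⟩ := hne
  let A : ℕ → Set X := fun n => Nat.rec {c} (fun _ B => convexHull ℝ (B ∪ T '' B)) n
  have hcont : ContinuousOn T K := by
    refine (LipschitzOnWith.of_dist_le_mul (K := 1) fun x hx y hy => ?_).continuousOn
    simpa [dist_eq_norm] using hT x hx y hy
  have hA : ∀ n, A n ⊆ K ∧ Convex ℝ (A n) ∧ IsSeparable (A n) := by
    intro n
    induction n with
    | zero =>
      exact ⟨singleton_subset_iff.mpr hc, convex_singleton c, (Set.finite_singleton c).isSeparable⟩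
    | succ n ih =>
      obtain ⟨h1, -, h3⟩ := ih
      refine ⟨convexHull_min (union_subset h1 (image_subset_iff.mpr fun x hx => hKT (h1 hx))) hconv,
        convex_convexHull ℝ _, ?_⟩
      refine ((IsSeparable.union h3 (u := T '' A n) ?_).span (R := ℝ)).mono ?_
      · exact (hcont.mono h1).isSeparable_image h3
      · exact convexHull_min Submodule.subset_span (Submodule.convex _)
  have hmono : Monotone A := monotone_nat_of_le_succ fun n =>
    (subset_union_left).trans (subset_convexHull ℝ _)
  let B := closure (⋃ n, A n)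
  have hBK : B ⊆ K := closure_minimal (iUnion_subset fun n => (hA n).1) hcl
  have hB : B = K := by
    refine hmin B hBK ⟨c, subset_closure (mem_iUnion.mpr ⟨0, rfl⟩)⟩ isClosed_closure ?_ ?_
    · exact (hmono.directed_le.convex_iUnion fun n => (hA n).2.1).closure
    · intro x hx
      have h1 : T x ∈ T '' closure (⋃ n, A n) := mem_image_of_mem T hx
      have h2 := ((hcont.mono hBK).image_closure) h1
      refine closure_mono ?_ h2
      rintro _ ⟨y, hy, rfl⟩
      obtain ⟨n, hn⟩ := mem_iUnion.mp hy
      exact mem_iUnion.mpr ⟨n + 1, subset_convexHull ℝ _ (Or.inr (mem_image_of_mem T hn))⟩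
  rw [← hB]
  exact (IsSeparable.iUnion fun n => (hA n).2.2).closure

/-- A separable set spans a closed subspace with a dense sequence and a norming sequence. -/
theorem exists_dense_norming (hK : IsSeparable K) :
    ∃ (S : Submodule ℝ X) (z : ℕ → X) (φ : ℕ → StrongDual ℝ X),
      IsClosed (S : Set X) ∧ K ⊆ S ∧ (S : Set X) ⊆ closure (range z) ∧
      (∀ x ∈ S, (∀ l, φ l x = 0) → x = 0) := by
  let S : Submodule ℝ X := (Submodule.span ℝ K).topologicalClosure
  have hS : IsSeparable (S : Set X) := by
    rw [Submodule.topologicalClosure_coe]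
    exact (hK.span (R := ℝ)).closure
  obtain ⟨c, hc, hcS⟩ := hS
  obtain ⟨z, hz⟩ := (hc.union (countable_singleton 0)).exists_eq_range
    ⟨0, Or.inr rfl⟩
  choose φ hφ1 hφ2 using fun l => exists_dual_vector'' ℝ (z l)
  have hSz : (S : Set X) ⊆ closure (range z) := by
    refine hcS.trans (closure_mono ?_)
    rw [← hz]
    exact subset_union_left
  refine ⟨S, z, φ, Submodule.isClosed_topologicalClosure _,
    Submodule.subset_span.trans (Submodule.le_topologicalClosure _), hSz, fun x hx h0 => ?_⟩
  refine norm_le_zero_iff.mp (le_of_forall_pos_le_add fun e he => ?_)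
  obtain ⟨_, ⟨l, rfl⟩, hl⟩ := Metric.mem_closure_iff.mp (hSz hx) (e / 2) (half_pos he)
  rw [dist_eq_norm] at hl
  have h1 : ‖z l‖ ≤ ‖x - z l‖ := by
    have h := (φ l).le_opNorm (z l - x)
    rw [map_sub, h0 l, sub_zero, hφ2 l, norm_sub_rev] at h
    simp only [RCLike.ofReal_real_eq_id, id_eq, Real.norm_eq_abs, abs_norm] at h
    exact h.trans (mul_le_of_le_one_left (norm_nonneg _) (hφ1 l))
  linarith [norm_le_norm_sub_add x (z l)]

end Vale.Agent.P079.Full
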