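import Vale.Agent.P079.Defs
import Vale.Agent.P079.Full.Core
import Vale.Agent.P079.Full.Separable

/-!
Every reflexive Banach space has the fixed point property.
-/

open Filter Topology Metric Set

namespace Vale.Agent.P079.Full

universe u

theorem hasFPP_of_reflexive (X : Type u) [NormedAddCommGroup X] [NormedSpace ℝ X] [CompleteSpace X]
    (href : Function.Surjective (NormedSpace.inclusionInDoubleDual ℝ X)) : HasFPP X := by
  intro C hCne hCcl hCb hCconv T hT hne
  obtain ⟨K, hKC, ⟨c₁, hc₁⟩, hKcl, hKconv, hKT, hmin⟩ :=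
    exists_minimal_invariant href C hCne hCcl hCb hCconv T hT
  by_contra hno
  push Not at hno
  have hneK : ∀ x ∈ K, ∀ y ∈ K, ‖T x - T y‖ ≤ ‖x - y‖ :=
    fun x hx y hy => hne x (hKC hx) y (hKC hy)
  have hKb : Bornology.IsBounded K := hCb.subset hKC
  set d := diam K with hd_def
  have hle : ∀ x ∈ K, ∀ y ∈ K, ‖x - y‖ ≤ d := fun x hx y hy => by
    rw [← dist_eq_norm]; exact dist_le_diam_of_mem hKb hx hy
  have hd : 0 < d := by
    refine lt_of_lt_of_le ?_ (hle _ (hKT hc₁) _ hc₁)
    exact norm_pos_iff.mpr (sub_ne_zero.mpr (hno c₁ (hKC hc₁)))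
  obtain ⟨S, z, φ, hScl, hKS, hz, hsep⟩ :=
    exists_dense_norming (isSeparable_minimal ⟨c₁, hc₁⟩ hKcl hKconv hKT hmin hneK)
  obtain ⟨U, hU⟩ := Ultrafilter.exists_le (atTop : Filter ℕ)
  let σ : ℕ → ℝ := fun k => 1 / ((k : ℝ) + 1)
  have hσ : ∀ k, 0 < σ k := fun k => by positivity
  choose R hRK hRlip hRT hRx using fun k => exists_resolvent hKcl hKconv hKT hneK (hσ k)
    (by simp only [σ]; rw [div_le_one (by positivity)]; simp)
  have hRT' : ∀ k, ∀ a ∈ K, ‖T (R k a) - R k a‖ ≤ σ k * d := fun k a ha =>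
    (hRT k a ha).trans (mul_le_mul_of_nonneg_left (hle _ (hKT (hRK k ha)) _ ha) (hσ k).le)
  have hσ0 : Tendsto σ U (𝓝 0) := tendsto_one_div_add_atTop_nhds_zero_nat.mono_left hU
  let F : Frame X :=
    { K := K, T := T, d := d, S := S, z := z, φ := φ, x := fun k => R k c₁, U := U, σ := σ, R := R
      href := href, hcl := hKcl, hconv := hKconv, hd := hd
      bounded := hKb.exists_norm_le
      hdiam := hle
      gk := fun c hc e he => goebel_karlovitz href hKcl hKb hKconv hKT hmin hneK hc he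
      hScl := hScl, hKS := hKS, hsep := hsep
      hx := fun k => hRK k hc₁
      hxT := squeeze_zero (fun _ => norm_nonneg _) (fun k => hRT' k c₁ hc₁)
        (by simpa using hσ0.mul_const d)
      hσ := hσ, hσ0 := hσ0, hR := hRK, hRlip := hRlip, hRT := hRT', hRx := hRx }
  obtain ⟨o, ho⟩ := exists_winAt href z S hScl hz (ε := 1 / 2) (by norm_num)
  let st : St X := ⟨0, 1, 0, 1, 0, fun _ p => p⟩
  have hv : F.Valid st :=
    ⟨zero_le_one, le_rfl, le_rfl, fun _ _ hp => hp, fun _ a _ b _ => by simp [st],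
      fun _ p _ => by simp [st]⟩
  obtain ⟨W, -, -, hW⟩ := F.good_all (ε := 1 / 2) (by norm_num) o [st]
    (by simp only [List.mem_singleton, forall_eq]; exact ⟨hv, ho⟩) 1 one_pos (d / 4) (by linarith)
  obtain ⟨j, hj⟩ := (hW st List.mem_cons_self).exists
  simp only [st, F, zero_apply] at hj
  linarith

end Vale.Agent.P079.Full
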