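import Vale.Agent.P079.Basic

/-!
A predictable form of Mazur's lemma: weights can be chosen before the functionals are seen,
so that every admissible sequence of almost null functionals has a small weighted sum.
-/

open Filter Topology Metric Set

namespace Vale.Agent.P079.Full

universe u

variable {X : Type u} [NormedAddCommGroup X] [NormedSpace ℝ X]

/-- Admissible functionals at depth `n` with respect to the sequence `z`. -/
def Adm (z : ℕ → X) (n : ℕ) (g : StrongDual ℝ X) : Prop :=
  ‖g‖ ≤ 2 ∧ ∀ l ≤ n, |g (z l)| ≤ (1 / 2 : ℝ) ^ n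

theorem Adm.mono {z : ℕ → X} {n m : ℕ} {g : StrongDual ℝ X} (h : Adm z n g) (hm : m ≤ n) :
    Adm z m g :=
  ⟨h.1, fun l hl => (h.2 l (hl.trans hm)).trans
    (pow_le_pow_of_le_one (by norm_num) (by norm_num) hm)⟩

/-- Common points of the slices given by a list of functionals. -/
def Slice (S : Submodule ℝ X) (ε : ℝ) (τ : List (StrongDual ℝ X)) : Set X :=
  {Z | Z ∈ S ∧ ‖Z‖ ≤ 1 ∧ ∀ g ∈ τ, ε ≤ g Z}

/-- The extension relation on lists with a common slice point. -/
def Ext (z : ℕ → X) (S : Submodule ℝ X) (ε : ℝ) (τ' τ : List (StrongDual ℝ X)) : Prop :=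
  ∃ g, Adm z τ.length g ∧ τ' = g :: τ ∧ (Slice S ε τ').Nonempty

theorem wellFounded_ext (href : Function.Surjective (NormedSpace.inclusionInDoubleDual ℝ X))
    (z : ℕ → X) (S : Submodule ℝ X) (hScl : IsClosed (S : Set X))
    (hz : (S : Set X) ⊆ closure (range z)) {ε : ℝ} (hε : 0 < ε) :
    WellFounded (Ext z S ε) := by
  rw [wellFounded_iff_isEmpty_descending_chain]
  refine ⟨fun ⟨f, hf⟩ => ?_⟩
  choose g hg hcons hne using hf
  choose Z hZS hZn hZg using hne
  have hlen : ∀ n, n ≤ (f n).length := by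
    intro n
    induction n with
    | zero => exact Nat.zero_le _
    | succ n ih => rw [hcons n, List.length_cons]; omega
  have hsub : ∀ n m, n ≤ m → f n ⊆ f m := by
    intro n m h
    induction h with
    | refl => exact fun x hx => hx
    | step _ ih =>
      intro x hx
      rw [hcons]
      exact List.mem_cons_of_mem _ (ih hx)
  obtain ⟨U, hU⟩ := Ultrafilter.exists_le (atTop : Filter ℕ)
  obtain ⟨L, hL⟩ := exists_weakLim href U Z 1 hZn
  have hLS : L ∈ (S : Set X) :=
    weakLim_mem hL hScl S.convex (Eventually.of_forall hZS)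
  have hLg : ∀ m, ε ≤ g m L := by
    intro m
    refine ge_of_tendsto (hL (g m)) (hU ((eventually_ge_atTop m).mono fun n hn => ?_))
    refine hZg n _ (hsub (m + 1) (n + 1) (by omega) ?_)
    rw [hcons]
    exact List.mem_cons_self
  obtain ⟨_, ⟨l, rfl⟩, hl⟩ := Metric.mem_closure_iff.mp (hz hLS) (ε / 8) (by positivity)
  rw [dist_eq_norm] at hl
  obtain ⟨k, hk⟩ := exists_pow_lt_of_lt_one (half_pos hε) (by norm_num : (1 / 2 : ℝ) < 1)
  let m := max l k
  have h1 : |g m (z l)| ≤ (1 / 2 : ℝ) ^ k :=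
    ((hg m).2 l ((le_max_left l k).trans (hlen m))).trans
      (pow_le_pow_of_le_one (by norm_num) (by norm_num) ((le_max_right l k).trans (hlen m)))
  have h2 : g m (L - z l) ≤ 2 * ‖L - z l‖ :=
    (le_abs_self _).trans (((g m).le_opNorm _).trans
      (mul_le_mul_of_nonneg_right (hg m).1 (norm_nonneg _)))
  rw [map_sub] at h2
  linarith [hLg m, (abs_le.mp h1).2]

/-- A game in which the weight is announced before the functional is revealed. -/
inductive Play (z : ℕ → X) (Post : ℕ → List (ℝ × StrongDual ℝ X) → Prop) :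
    ℕ → ℝ → List (ℝ × StrongDual ℝ X) → Prop
  | done {n acc} : Post n acc → Play z Post n 0 acc
  | step {n m acc} (w : ℝ) : 0 ≤ w → w ≤ m →
      (∀ g, Adm z n g → Play z Post (n + 1) (m - w) (acc ++ [(w, g)])) → Play z Post n m acc

theorem Play.bind {z : ℕ → X} {P₁ P₂ : ℕ → List (ℝ × StrongDual ℝ X) → Prop} {n : ℕ} {m₁ m₂ : ℝ}
    {acc : List (ℝ × StrongDual ℝ X)} (h : Play z P₁ n m₁ acc) (hm₂ : 0 ≤ m₂)
    (h₂ : ∀ n' acc', n ≤ n' → P₁ n' acc' → Play z P₂ n' m₂ acc') :
    Play z P₂ n (m₁ + m₂) acc := by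
  induction h with
  | done hp => rw [zero_add]; exact h₂ _ _ le_rfl hp
  | step w hw hwm _ ih =>
    refine Play.step w hw (by linarith) fun g hg => ?_
    rw [add_sub_right_comm]
    exact ih g hg fun n' acc' hn => h₂ n' acc' (by omega)

/-- The weighted sum of a play. -/
noncomputable def val (D : List (ℝ × StrongDual ℝ X)) : StrongDual ℝ X :=
  (D.map fun p => p.1 • p.2).sum

theorem val_append (D D' : List (ℝ × StrongDual ℝ X)) : val (D ++ D') = val D + val D' := by
  simp [val]

/-- The total weight of a play. -/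
def mass (D : List (ℝ × StrongDual ℝ X)) : ℝ :=
  (D.map fun p => p.1).sum

theorem mass_append (D D' : List (ℝ × StrongDual ℝ X)) : mass (D ++ D') = mass D + mass D' := by
  simp [mass]

theorem val_le (D : List (ℝ × StrongDual ℝ X)) (Z : X) (c : ℝ)
    (hw : ∀ p ∈ D, 0 ≤ p.1) (hg : ∀ p ∈ D, p.2 Z ≤ c) : val D Z ≤ c * mass D := by
  induction D with
  | nil => simp [val, mass]
  | cons p D ih =>
    have h1 := ih (fun q hq => hw q (List.mem_cons_of_mem _ hq))
      (fun q hq => hg q (List.mem_cons_of_mem _ hq))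
    have h2 := mul_le_mul_of_nonneg_left (hg p List.mem_cons_self) (hw p List.mem_cons_self)
    simp only [val, mass, List.map_cons, List.sum_cons] at h1 ⊢
    rw [ContinuousLinearMap.add_apply, ContinuousLinearMap.smul_apply, smul_eq_mul]
    linarith

/-- Specification of a block of moves. -/
def Block (z : ℕ → X) (S : Submodule ℝ X) (ε : ℝ) (N : List (List (StrongDual ℝ X))) (η : ℝ)
    (n : ℕ) (m : ℝ) (D : List (ℝ × StrongDual ℝ X)) : Prop :=
  (∀ p ∈ D, 0 ≤ p.1 ∧ Adm z n p.2) ∧ mass D = m ∧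
    ∀ τ ∈ N, ∀ Z ∈ Slice S ε τ, val D Z ≤ η * m

theorem play_block (z : ℕ → X) (S : Submodule ℝ X) {ε : ℝ} (hε : 0 ≤ ε)
    (hwf : WellFounded (Ext z S ε)) (N : List (List (StrongDual ℝ X))) :
    ∀ η, ε < η → ∀ n, (∀ τ ∈ N, τ.length ≤ n) → ∀ m, 0 ≤ m → ∀ acc,
      Play z (fun n' acc' => ∃ D, acc' = acc ++ D ∧ n + D.length ≤ n' ∧ Block z S ε N η n m D) n m acc := by
  classical
  have : IsWellFounded _ (Ext z S ε) := ⟨hwf⟩
  suffices H : ∀ o : Ordinal, ∀ N : List (List (StrongDual ℝ X)),
      (∀ τ ∈ N, IsWellFounded.rank (Ext z S ε) τ < o) →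
      ∀ η, ε < η → ∀ n, (∀ τ ∈ N, τ.length ≤ n) → ∀ m, 0 ≤ m → ∀ acc,
        Play z (fun n' acc' => ∃ D, acc' = acc ++ D ∧ n + D.length ≤ n' ∧ Block z S ε N η n m D) n m acc by
    obtain ⟨o, ho⟩ : ∃ o : Ordinal, ∀ τ ∈ N, IsWellFounded.rank (Ext z S ε) τ < o :=
      ⟨(N.map fun τ => IsWellFounded.rank (Ext z S ε) τ + 1).sum, fun τ hτ =>
        lt_of_lt_of_le (lt_add_one _) (List.le_sum_of_mem (List.mem_map_of_mem hτ))⟩
    exact H o N ho
  intro o
  induction o using WellFoundedLT.induction with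
  | ind o ih =>
  intro N hN η hη n hn m hm acc
  by_cases hN0 : N = []
  · subst hN0
    refine Play.step m hm le_rfl fun g hg => ?_
    rw [sub_self]
    exact Play.done ⟨[(m, g)], rfl, by simp, by simp [hm, hg], by simp [mass], by simp⟩
  obtain ⟨τ₀, hτ₀, hmax⟩ := N.toFinset.exists_max_image (IsWellFounded.rank (Ext z S ε))
    (by simpa [Finset.nonempty_iff_ne_empty] using hN0)
  rw [List.mem_toFinset] at hτ₀
  obtain ⟨M, hM⟩ := exists_nat_gt (4 / (η - ε))
  have hM0 : (0 : ℝ) < M := lt_trans (div_pos (by norm_num) (by linarith)) hM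
  set η' : ℝ := (ε + η) / 2 with hη'
  set μ : ℝ := m / M with hμ
  have hμ0 : 0 ≤ μ := by positivity
  let Inv : ℕ → List (ℝ × StrongDual ℝ X) → Prop := fun j D =>
    (∀ p ∈ D, 0 ≤ p.1 ∧ Adm z n p.2) ∧ mass D = j * μ ∧
      ∀ τ ∈ N, ∀ Z ∈ Slice S ε τ, val D Z ≤ η' * (j * μ) + 2 * μ ∧
        ((∃ p ∈ D, ε ≤ p.2 Z) ∨ val D Z ≤ ε * (j * μ))
  have hstages : ∀ j : ℕ, Play z (fun n' acc' => ∃ D, acc' = acc ++ D ∧ n + D.length ≤ n' ∧ Inv j D)
      n (j * μ) acc := by
    intro j
    induction j with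
    | zero =>
      rw [Nat.cast_zero, zero_mul]
      refine Play.done ⟨[], (List.append_nil _).symm, by simp, by simp, by simp [mass], ?_⟩
      intro τ _ Z _
      simp [val, hμ0]
    | succ j hj =>
      rw [Nat.cast_succ, add_one_mul]
      refine hj.bind hμ0 ?_
      rintro n' _ hnn' ⟨D, rfl, hDlen, hD1, hD2, hD3⟩
      let N' : List (List (StrongDual ℝ X)) :=
        (D.flatMap fun p => N.map fun τ => p.2 :: τ).filter
          fun τ' => decide ((Slice S ε τ').Nonempty ∧ τ'.length ≤ n')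
      have hN' : ∀ τ' ∈ N', IsWellFounded.rank (Ext z S ε) τ' <
          IsWellFounded.rank (Ext z S ε) τ₀ := by
        intro τ' hτ'
        simp only [N', List.mem_filter, List.mem_flatMap, List.mem_map, decide_eq_true_eq]
          at hτ'
        obtain ⟨⟨p, hp, τ, hτ, rfl⟩, hne, -⟩ := hτ'
        exact (IsWellFounded.rank_lt_of_rel ⟨p.2, (hD1 p hp).2.mono (hn τ hτ), rfl, hne⟩).trans_le
          (hmax τ (List.mem_toFinset.mpr hτ))
      have hlen : ∀ τ' ∈ N', τ'.length ≤ n' := by
        intro τ' hτ'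
        simp only [N', List.mem_filter, decide_eq_true_eq] at hτ'
        exact hτ'.2.2
      have hplay := ih _ (hN τ₀ hτ₀) N' hN' η' (by linarith) n' hlen μ hμ0 (acc ++ D)
      rw [← add_zero μ]
      refine (hplay.bind le_rfl fun n'' _ hn'' h => Play.done ?_)
      obtain ⟨D', rfl, hD'len, hD'1, hD'2, hD'3⟩ := h
      refine ⟨D ++ D', List.append_assoc _ _ _, by rw [List.length_append]; omega, ?_, ?_, ?_⟩
      · intro p hp
        rcases List.mem_append.mp hp with h | h
        · exact hD1 p h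
        · exact ⟨(hD'1 p h).1, (hD'1 p h).2.mono hnn'⟩
      · rw [mass_append, hD2, hD'2, Nat.cast_succ, add_one_mul]
      · intro τ hτ Z hZ
        obtain ⟨hb, hcase⟩ := hD3 τ hτ Z hZ
        rw [val_append, ContinuousLinearMap.add_apply, Nat.cast_succ, add_one_mul]
        rcases hcase with ⟨p, hp, hpZ⟩ | hcase
        · -- a functional that is large at `Z` was seen in an earlier stage
          have hmem : p.2 :: τ ∈ N' := by
            simp only [N', List.mem_filter, List.mem_flatMap, List.mem_map, decide_eq_true_eq]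
            refine ⟨⟨p, hp, τ, hτ, rfl⟩, ⟨Z, hZ.1, hZ.2.1, ?_⟩, ?_⟩
            · intro g hg
              rcases List.mem_cons.mp hg with rfl | hg
              · exact hpZ
              · exact hZ.2.2 g hg
            · rw [List.length_cons]
              have := hn τ hτ
              have := List.length_pos_of_mem hp
              omega
          have h' := hD'3 _ hmem Z ⟨hZ.1, hZ.2.1, fun g hg => by
            rcases List.mem_cons.mp hg with rfl | hg
            · exact hpZ
            · exact hZ.2.2 g hg⟩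
          exact ⟨by nlinarith, Or.inl ⟨p, List.mem_append_left _ hp, hpZ⟩⟩
        by_cases hex : ∃ p ∈ D', ε ≤ p.2 Z
        · obtain ⟨p, hp, hpZ⟩ := hex
          have h2 : val D' Z ≤ 2 * mass D' := val_le D' Z 2 (fun q hq => (hD'1 q hq).1)
            fun q hq => (le_abs_self _).trans ((q.2.le_opNorm Z).trans
              ((mul_le_mul (hD'1 q hq).2.1 hZ.2.1 (norm_nonneg _) (by norm_num)).trans_eq
                (mul_one _)))
          rw [hD'2] at h2
          have hjμ : ε * (j * μ) ≤ η' * (j * μ) :=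
            mul_le_mul_of_nonneg_right (by linarith) (by positivity)
          have hη'μ : 0 ≤ η' * μ := mul_nonneg (by linarith) hμ0
          exact ⟨by nlinarith, Or.inl ⟨p, List.mem_append_right _ hp, hpZ⟩⟩
        · push Not at hex
          have h2 : val D' Z ≤ ε * mass D' :=
            val_le D' Z ε (fun q hq => (hD'1 q hq).1) fun q hq => (hex q hq).le
          rw [hD'2] at h2
          have hjμ : ε * (j * μ + μ) ≤ η' * (j * μ + μ) :=
            mul_le_mul_of_nonneg_right (by linarith) (by positivity)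
          exact ⟨by nlinarith, Or.inr (by nlinarith)⟩
  have hMμ : (M : ℝ) * μ = m := by rw [hμ]; field_simp
  have := (hstages M).bind le_rfl (P₂ := fun n' acc' => ∃ D, acc' = acc ++ D ∧
      n + D.length ≤ n' ∧ Block z S ε N η n m D) fun _ _ _ h => Play.done <| by
    obtain ⟨D, rfl, hlen, h1, h2, h3⟩ := h
    refine ⟨D, rfl, hlen, h1, h2.trans hMμ, fun τ hτ Z hZ => (h3 τ hτ Z hZ).1.trans ?_⟩
    rw [hMμ]
    have : 2 * μ ≤ (η - η') * m := by
      have h4 : 4 ≤ (η - ε) * M := by
        rw [mul_comm]; exact ((div_lt_iff₀ (by linarith)).mp hM).le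
      have := mul_le_mul_of_nonneg_right h4 hμ0
      rw [mul_assoc, hMμ] at this
      rw [hη']
      linarith
    linarith
  simpa [hMμ] using this

/-- A winning position with an ordinal bound. -/
inductive WinAt (z : ℕ → X) (S : Submodule ℝ X) (ε : ℝ) :
    Ordinal.{u} → ℕ → ℝ → StrongDual ℝ X → Prop
  | done {o n G} : (∀ Z ∈ S, G Z ≤ ε * ‖Z‖) → WinAt z S ε o n 0 G
  | step {o n m G} (w : ℝ) (next : StrongDual ℝ X → Ordinal.{u}) : 0 ≤ w → w ≤ m →
      (∀ g, Adm z n g → next g < o) →
      (∀ g, Adm z n g → WinAt z S ε (next g) (n + 1) (m - w) (G + w • g)) →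
      WinAt z S ε o n m G

theorem WinAt.mono {z : ℕ → X} {S : Submodule ℝ X} {ε : ℝ} {o o' : Ordinal.{u}} {n : ℕ} {m : ℝ}
    {G : StrongDual ℝ X} (h : WinAt z S ε o n m G) (ho : o ≤ o') : WinAt z S ε o' n m G := by
  cases h with
  | done hG => exact WinAt.done hG
  | step w next hw hwm hlt h =>
    exact WinAt.step w next hw hwm (fun g hg => (hlt g hg).trans_le ho) h

/-- Predictable Mazur lemma. -/
theorem exists_winAt (href : Function.Surjective (NormedSpace.inclusionInDoubleDual ℝ X))
    (z : ℕ → X) (S : Submodule ℝ X) (hScl : IsClosed (S : Set X))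
    (hz : (S : Set X) ⊆ closure (range z)) {ε : ℝ} (hε : 0 < ε) :
    ∃ o : Ordinal.{u}, WinAt z S ε o 0 1 0 := by
  have hwf := wellFounded_ext href z S hScl hz (half_pos hε)
  have hplay := play_block z S (half_pos hε).le hwf [[]] ε (half_lt_self hε) 0 (by simp) 1 zero_le_one []
  suffices H : ∀ n m acc, Play z (fun _ acc' => ∀ Z ∈ S, val acc' Z ≤ ε * ‖Z‖) n m acc →
      ∃ o : Ordinal.{u}, WinAt z S ε o n m (val acc) by
    have h0 : val ([] : List (ℝ × StrongDual ℝ X)) = 0 := rfl
    rw [← h0]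
    refine H 0 1 [] ?_
    have := hplay.bind le_rfl (P₂ := fun _ acc' => ∀ Z ∈ S, val acc' Z ≤ ε * ‖Z‖)
      fun _ _ _ h => Play.done <| by
        obtain ⟨D, rfl, -, -, -, hD⟩ := h
        intro Z hZ
        rcases eq_or_ne Z 0 with rfl | hZ0
        · simp
        have hn : 0 < ‖Z‖ := norm_pos_iff.mpr hZ0
        have := hD [] List.mem_cons_self (‖Z‖⁻¹ • Z)
          ⟨S.smul_mem _ hZ, by rw [norm_smul, norm_inv, norm_norm, inv_mul_cancel₀ hn.ne'],
            by simp⟩
        rw [map_smul, smul_eq_mul, mul_one, inv_mul_le_iff₀ hn] at this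
        simpa [mul_comm] using this
    simpa using this
  intro n m acc h
  induction h with
  | done hp => exact ⟨0, WinAt.done hp⟩
  | @step n m acc w hw hwm _ ih =>
    choose o ho using ih
    classical
    let next : StrongDual ℝ X → Ordinal.{u} := fun g => if hg : Adm z n g then o g hg else 0
    refine ⟨(⨆ g, next g) + 1, WinAt.step w next hw hwm
      (fun g _ => lt_of_le_of_lt (Ordinal.le_iSup next g) (lt_add_one _)) fun g hg => ?_⟩
    simp only [next, dif_pos hg]
    have := ho g hg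
    rw [val_append] at this
    simpa [val] using this

end Vale.Agent.P079.Full
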